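import Vale.Agent.P366.T2.G2.SO

/-! The group `G₂` acts transitively on the orthonormal pairs of `ℝ⁷`. -/

open Matrix Filter Topology Set
open scoped ContDiff

noncomputable section
namespace Vale.Agent.G2
open Vale.Agent.P366.Stmt Vale.Agent.P366.T2

/-- The cross product of `ℝ⁷ = Im 𝕆` (the unit vectors satisfy `eᵢ × eᵢ₊₁ = eᵢ₊₃`, indices
mod 7). -/
def cross (x y : Fin 7 → ℝ) (k : Fin 7) : ℝ :=
  x (k + 1) * y (k + 3) - x (k + 3) * y (k + 1) + x (k + 2) * y (k + 6) - x (k + 6) * y (k + 2) +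
    x (k + 4) * y (k + 5) - x (k + 5) * y (k + 4)

/-- The group `G₂`: the orthogonal matrices that preserve the cross product. -/
def IsG2 (A : Matrix (Fin 7) (Fin 7) ℝ) : Prop :=
  Aᵀ * A = 1 ∧ ∀ x y, A *ᵥ cross x y = cross (A *ᵥ x) (A *ᵥ y)

lemma dot7 (x y : Fin 7 → ℝ) : x ⬝ᵥ y = x 0 * y 0 + x 1 * y 1 + x 2 * y 2 + x 3 * y 3 +
    x 4 * y 4 + x 5 * y 5 + x 6 * y 6 := by
  simp [dotProduct, Fin.sum_univ_succ]
  ring_nf

lemma cr0 (x y : Fin 7 → ℝ) : cross x y 0 = x 1 * y 3 - x 3 * y 1 + x 2 * y 6 - x 6 * y 2 +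
    x 4 * y 5 - x 5 * y 4 := rfl
lemma cr1 (x y : Fin 7 → ℝ) : cross x y 1 = x 2 * y 4 - x 4 * y 2 + x 3 * y 0 - x 0 * y 3 +
    x 5 * y 6 - x 6 * y 5 := rfl
lemma cr2 (x y : Fin 7 → ℝ) : cross x y 2 = x 3 * y 5 - x 5 * y 3 + x 4 * y 1 - x 1 * y 4 +
    x 6 * y 0 - x 0 * y 6 := rfl
lemma cr3 (x y : Fin 7 → ℝ) : cross x y 3 = x 4 * y 6 - x 6 * y 4 + x 5 * y 2 - x 2 * y 5 +
    x 0 * y 1 - x 1 * y 0 := rfl
lemma cr4 (x y : Fin 7 → ℝ) : cross x y 4 = x 5 * y 0 - x 0 * y 5 + x 6 * y 3 - x 3 * y 6 +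
    x 1 * y 2 - x 2 * y 1 := rfl
lemma cr5 (x y : Fin 7 → ℝ) : cross x y 5 = x 6 * y 1 - x 1 * y 6 + x 0 * y 4 - x 4 * y 0 +
    x 2 * y 3 - x 3 * y 2 := rfl
lemma cr6 (x y : Fin 7 → ℝ) : cross x y 6 = x 0 * y 2 - x 2 * y 0 + x 1 * y 5 - x 5 * y 1 +
    x 3 * y 4 - x 4 * y 3 := rfl

lemma cross_anti (x y : Fin 7 → ℝ) : cross x y = -cross y x := by
  funext k; simp only [Pi.neg_apply, cross]; ring

lemma cross_self (x : Fin 7 → ℝ) : cross x x = 0 := by
  funext k; simp only [Pi.zero_apply, cross]; ring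

lemma cross_add (x y z : Fin 7 → ℝ) : cross x (y + z) = cross x y + cross x z := by
  funext k; simp only [Pi.add_apply, cross]; ring

lemma add_cross (x y z : Fin 7 → ℝ) : cross (x + y) z = cross x z + cross y z := by
  funext k; simp only [Pi.add_apply, cross]; ring

lemma cross_smul (c : ℝ) (x y : Fin 7 → ℝ) : cross x (c • y) = c • cross x y := by
  funext k; simp only [Pi.smul_apply, smul_eq_mul, cross]; ring

lemma smul_cross (c : ℝ) (x y : Fin 7 → ℝ) : cross (c • x) y = c • cross x y := by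
  funext k; simp only [Pi.smul_apply, smul_eq_mul, cross]; ring

lemma cross_neg (x y : Fin 7 → ℝ) : cross x (-y) = -cross x y := by
  funext k; simp only [Pi.neg_apply, cross]; ring

lemma neg_cross (x y : Fin 7 → ℝ) : cross (-x) y = -cross x y := by
  funext k; simp only [Pi.neg_apply, cross]; ring

/-- the triple product is cyclic -/
lemma triple (x y z : Fin 7 → ℝ) : cross x y ⬝ᵥ z = x ⬝ᵥ cross y z := by
  simp only [dot7, cr0, cr1, cr2, cr3, cr4, cr5, cr6]; ring

lemma dot_cross (x y : Fin 7 → ℝ) : x ⬝ᵥ cross x y = 0 := by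
  rw [← triple, cross_self, zero_dotProduct]

lemma dot_cross' (x y : Fin 7 → ℝ) : y ⬝ᵥ cross x y = 0 := by
  rw [cross_anti, dotProduct_neg, dot_cross, neg_zero]

/-- the basic identity -/
lemma cross_cross (x y : Fin 7 → ℝ) : cross x (cross x y) = (x ⬝ᵥ y) • x - (x ⬝ᵥ x) • y := by
  funext k
  fin_cases k <;>
    (simp only [Pi.sub_apply, Pi.smul_apply, smul_eq_mul, dot7]
     first
     | (show cross x (cross x y) 0 = _ * x 0 - _ * y 0
        simp only [cr0, cr1, cr2, cr3, cr4, cr5, cr6]; ring)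
     | (show cross x (cross x y) 1 = _ * x 1 - _ * y 1
        simp only [cr0, cr1, cr2, cr3, cr4, cr5, cr6]; ring)
     | (show cross x (cross x y) 2 = _ * x 2 - _ * y 2
        simp only [cr0, cr1, cr2, cr3, cr4, cr5, cr6]; ring)
     | (show cross x (cross x y) 3 = _ * x 3 - _ * y 3
        simp only [cr0, cr1, cr2, cr3, cr4, cr5, cr6]; ring)
     | (show cross x (cross x y) 4 = _ * x 4 - _ * y 4
        simp only [cr0, cr1, cr2, cr3, cr4, cr5, cr6]; ring)
     | (show cross x (cross x y) 5 = _ * x 5 - _ * y 5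
        simp only [cr0, cr1, cr2, cr3, cr4, cr5, cr6]; ring)
     | (show cross x (cross x y) 6 = _ * x 6 - _ * y 6
        simp only [cr0, cr1, cr2, cr3, cr4, cr5, cr6]; ring))

/-- its polarisation -/
lemma cross_polar (x z y : Fin 7 → ℝ) : cross x (cross z y) + cross z (cross x y) =
    (x ⬝ᵥ y) • z + (z ⬝ᵥ y) • x - (2 * (x ⬝ᵥ z)) • y := by
  have h := cross_cross (x + z) y
  simp only [add_cross, cross_add, cross_cross, add_dotProduct, dotProduct_add] at h
  rw [dotProduct_comm z x] at h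
  have h2 : cross x (cross z y) + cross z (cross x y) =
      ((x ⬝ᵥ y) • x - (x ⬝ᵥ x) • y + cross z (cross x y) +
        (cross x (cross z y) + ((z ⬝ᵥ y) • z - (z ⬝ᵥ z) • y))) -
        (((x ⬝ᵥ y) • x - (x ⬝ᵥ x) • y) + ((z ⬝ᵥ y) • z - (z ⬝ᵥ z) • y)) := by abel
  rw [h2, h]
  module

lemma norm_cross (x y : Fin 7 → ℝ) :
    cross x y ⬝ᵥ cross x y = (x ⬝ᵥ x) * (y ⬝ᵥ y) - (x ⬝ᵥ y) ^ 2 := by
  rw [triple, cross_anti x y, cross_neg, dotProduct_neg, cross_cross, dotProduct_sub,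
    dotProduct_smul, dotProduct_smul, dotProduct_comm y x]
  simp only [smul_eq_mul]
  ring

/-- The Cayley basis generated by three vectors. -/
def bas (a b c : Fin 7 → ℝ) : Fin 7 → Fin 7 → ℝ :=
  ![a, b, c, cross a b, cross b c, cross c (cross a b), cross a c]

/-- the matrix with columns `bas a b c` -/
def basM (a b c : Fin 7 → ℝ) : Matrix (Fin 7) (Fin 7) ℝ := Matrix.of fun i j => bas a b c j i

structure Basic (a b c : Fin 7 → ℝ) : Prop where
  aa : a ⬝ᵥ a = 1
  bb : b ⬝ᵥ b = 1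
  cc : c ⬝ᵥ c = 1
  ab : a ⬝ᵥ b = 0
  bc : b ⬝ᵥ c = 0
  ac : a ⬝ᵥ c = 0
  abc : cross a b ⬝ᵥ c = 0

namespace Basic

variable {a b c : Fin 7 → ℝ} (h : Basic a b c)
include h

lemma d1 : a ⬝ᵥ cross b c = 0 := by rw [← triple, h.abc]

lemma d2 : c ⬝ᵥ cross a b = 0 := by rw [dotProduct_comm, h.abc]

lemma d3 : b ⬝ᵥ cross c a = 0 := by rw [← triple, dotProduct_comm, h.d1]

lemma d4 : b ⬝ᵥ cross a c = 0 := by rw [cross_anti, dotProduct_neg, h.d3, neg_zero]

lemma nab : cross a b ⬝ᵥ cross a b = 1 := by rw [norm_cross, h.aa, h.bb, h.ab]; norm_num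

lemma nbc : cross b c ⬝ᵥ cross b c = 1 := by rw [norm_cross, h.bb, h.cc, h.bc]; norm_num

lemma nac : cross a c ⬝ᵥ cross a c = 1 := by rw [norm_cross, h.aa, h.cc, h.ac]; norm_num

/-- `c × (a × b) = a × (b × c)` -/
lemma e5a : cross c (cross a b) = cross a (cross b c) := by
  have h1 := cross_polar c a b
  rw [dotProduct_comm c b, h.bc, h.ab, dotProduct_comm c a, h.ac] at h1
  have h2 : cross a (cross c b) = -cross a (cross b c) := by rw [cross_anti c b, cross_neg]
  rw [h2] at h1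
  simp only [zero_smul, mul_zero, add_zero, sub_zero] at h1
  exact add_neg_eq_zero.1 h1

/-- `c × (a × b) = (a × c) × b` -/
lemma e5b : cross c (cross a b) = cross (cross a c) b := by
  have h1 := cross_polar c b a
  rw [dotProduct_comm c a, h.ac, dotProduct_comm b a, h.ab, dotProduct_comm c b, h.bc] at h1
  simp only [zero_smul, mul_zero, add_zero, sub_zero] at h1
  have h2 : cross c (cross b a) = -cross c (cross a b) := by rw [cross_anti b a, cross_neg]
  have h3 : cross b (cross c a) = cross (cross a c) b := by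
    rw [cross_anti b, cross_anti c a, neg_cross, neg_neg]
  rw [h2, h3] at h1
  exact (neg_add_eq_zero.1 h1)

lemma n5 : cross c (cross a b) ⬝ᵥ cross c (cross a b) = 1 := by
  rw [norm_cross, h.cc, h.nab, h.d2]; norm_num

lemma t3 : cross (cross a b) (cross b c) = cross a c := by
  have h1 := cross_polar (cross a b) b c
  rw [h.abc, h.bc] at h1
  have h0 : cross a b ⬝ᵥ b = 0 := by rw [dotProduct_comm, dot_cross']
  rw [h0] at h1
  simp only [zero_smul, mul_zero, add_zero, sub_zero] at h1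
  have h2 : cross (cross a b) c = -cross c (cross a b) := cross_anti _ _
  rw [h2, cross_neg, ← sub_eq_add_neg, sub_eq_zero] at h1
  rw [h1, h.e5b, cross_anti (cross a c) b, cross_neg, cross_cross, h.d4, h.bb]
  simp

lemma t4 : cross (cross b c) (cross c (cross a b)) = a := by
  rw [h.e5a, cross_anti a, cross_neg, cross_cross, h.nbc, dotProduct_comm, h.d1]
  simp

lemma t5 : cross (cross c (cross a b)) (cross a c) = b := by
  rw [h.e5b, cross_anti, cross_cross, h.nac, dotProduct_comm, h.d4]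
  simp

lemma t6 : cross (cross a c) a = c := by
  rw [cross_anti, cross_cross, h.aa, h.ac]
  simp

/-- the table: `eᵢ × eᵢ₊₁ = eᵢ₊₃` -/
lemma tab (i : Fin 7) : cross (bas a b c i) (bas a b c (i + 1)) = bas a b c (i + 3) := by
  fin_cases i
  · rfl
  · rfl
  · rfl
  · exact h.t3
  · exact h.t4
  · exact h.t5
  · exact h.t6

lemma norm (i : Fin 7) : bas a b c i ⬝ᵥ bas a b c i = 1 := by
  fin_cases i
  · exact h.aa
  · exact h.bb
  · exact h.cc
  · exact h.nab
  · exact h.nbc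
  · exact h.n5
  · exact h.nac

lemma orth1 (i : Fin 7) : bas a b c i ⬝ᵥ bas a b c (i + 1) = 0 := by
  fin_cases i
  · exact h.ab
  · exact h.bc
  · exact h.d2
  · show cross a b ⬝ᵥ cross b c = 0
    rw [triple, cross_cross, dotProduct_sub, dotProduct_smul, dotProduct_smul, h.bc, h.ac]
    simp
  · show cross b c ⬝ᵥ cross c (cross a b) = 0
    rw [triple, cross_cross, h.d2, h.cc, dotProduct_sub, dotProduct_smul, dotProduct_smul,
      dot_cross']
    simp
  · show cross c (cross a b) ⬝ᵥ cross a c = 0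
    rw [h.e5b, dotProduct_comm, dot_cross]
  · show cross a c ⬝ᵥ a = 0
    rw [dotProduct_comm, dot_cross]

lemma orth3 (i : Fin 7) : bas a b c i ⬝ᵥ bas a b c (i + 3) = 0 := by
  rw [← h.tab, dot_cross]

lemma orth2 (i : Fin 7) : bas a b c (i + 1) ⬝ᵥ bas a b c (i + 3) = 0 := by
  rw [← h.tab, dot_cross']

lemma orth (i j : Fin 7) : bas a b c i ⬝ᵥ bas a b c j = if i = j then 1 else 0 := by
  obtain ⟨d, rfl⟩ : ∃ d, j = i + d := ⟨j - i, (add_sub_cancel i j).symm⟩
  have e1 := h.orth1 i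
  have e2 := h.orth2 (i - 1)
  have e3 := h.orth3 i
  have e4 := h.orth3 (i + 4)
  have e5 := h.orth2 (i + 4)
  have e6 := h.orth1 (i + 6)
  have f2a : i - 1 + 1 = i := sub_add_cancel i 1
  have f2b : i - 1 + 3 = i + 2 := by rw [sub_eq_add_neg, add_assoc]; rfl
  have f4 : i + 4 + 3 = i := by
    rw [add_assoc, show (4 : Fin 7) + 3 = 0 by decide, add_zero]
  have f5 : i + 4 + 1 = i + 5 := by rw [add_assoc]; rfl
  have f6 : i + 6 + 1 = i := by
    rw [add_assoc, show (6 : Fin 7) + 1 = 0 by decide, add_zero]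
  rw [f2a, f2b] at e2
  rw [f4] at e4
  rw [f4, f5] at e5
  rw [f6] at e6
  have hne : ∀ d : Fin 7, d ≠ 0 → i ≠ i + d := by
    intro d hd h0
    exact hd (by simpa using h0.symm)
  fin_cases d
  · simp only [Fin.zero_eta, add_zero, if_true]; exact h.norm i
  · rw [if_neg (hne _ (by decide))]; exact e1
  · rw [if_neg (hne _ (by decide))]; exact e2
  · rw [if_neg (hne _ (by decide))]; exact e3
  · rw [if_neg (hne _ (by decide)), dotProduct_comm]; exact e4
  · rw [if_neg (hne _ (by decide)), dotProduct_comm]; exact e5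
  · rw [if_neg (hne _ (by decide)), dotProduct_comm]; exact e6

lemma tab1 (i : Fin 7) : cross (bas a b c (i + 1)) (bas a b c (i + 3)) = bas a b c i := by
  rw [← h.tab, cross_anti (bas a b c i), cross_neg, cross_cross, h.norm, dotProduct_comm,
    h.orth1]
  simp

lemma tab3 (i : Fin 7) : cross (bas a b c (i + 3)) (bas a b c i) = bas a b c (i + 1) := by
  rw [← h.tab, cross_anti, cross_cross, h.norm, h.orth1]
  simp

end Basic

lemma basM_vec (a b c x : Fin 7 → ℝ) : basM a b c *ᵥ x = ∑ i, x i • bas a b c i := by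
  funext k
  rw [Finset.sum_apply]
  simp only [mulVec, dotProduct, basM, Matrix.of_apply, Pi.smul_apply, smul_eq_mul]
  exact Finset.sum_congr rfl fun i _ => mul_comm _ _

lemma cross_sum_left {ι : Type*} (s : Finset ι) (f : ι → Fin 7 → ℝ) (y : Fin 7 → ℝ) :
    cross (∑ i ∈ s, f i) y = ∑ i ∈ s, cross (f i) y := by
  classical
  induction s using Finset.induction_on with
  | empty => funext k; simp [cross]
  | insert i s hi ih => rw [Finset.sum_insert hi, Finset.sum_insert hi, add_cross, ih]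

lemma cross_sum_right {ι : Type*} (s : Finset ι) (f : ι → Fin 7 → ℝ) (y : Fin 7 → ℝ) :
    cross y (∑ i ∈ s, f i) = ∑ i ∈ s, cross y (f i) := by
  rw [cross_anti, cross_sum_left, ← Finset.sum_neg_distrib]
  exact Finset.sum_congr rfl fun i _ => (cross_anti _ _).symm

lemma Basic.isG2 {a b c : Fin 7 → ℝ} (h : Basic a b c) : IsG2 (basM a b c) := by
  refine ⟨?_, fun x y => ?_⟩
  · ext i j
    rw [Matrix.mul_apply, Matrix.one_apply, ← h.orth i j]
    rfl
  · rw [basM_vec, basM_vec, basM_vec, cross_sum_left]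
    simp only [cross_sum_right, smul_cross, cross_smul]
    have t01 : cross (bas a b c 0) (bas a b c 1) = bas a b c 3 := h.tab 0
    have t12 : cross (bas a b c 1) (bas a b c 2) = bas a b c 4 := h.tab 1
    have t23 : cross (bas a b c 2) (bas a b c 3) = bas a b c 5 := h.tab 2
    have t34 : cross (bas a b c 3) (bas a b c 4) = bas a b c 6 := h.tab 3
    have t45 : cross (bas a b c 4) (bas a b c 5) = bas a b c 0 := h.tab 4
    have t56 : cross (bas a b c 5) (bas a b c 6) = bas a b c 1 := h.tab 5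
    have t60 : cross (bas a b c 6) (bas a b c 0) = bas a b c 2 := h.tab 6
    have u13 : cross (bas a b c 1) (bas a b c 3) = bas a b c 0 := h.tab1 0
    have u24 : cross (bas a b c 2) (bas a b c 4) = bas a b c 1 := h.tab1 1
    have u35 : cross (bas a b c 3) (bas a b c 5) = bas a b c 2 := h.tab1 2
    have u46 : cross (bas a b c 4) (bas a b c 6) = bas a b c 3 := h.tab1 3
    have u50 : cross (bas a b c 5) (bas a b c 0) = bas a b c 4 := h.tab1 4
    have u61 : cross (bas a b c 6) (bas a b c 1) = bas a b c 5 := h.tab1 5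
    have u02 : cross (bas a b c 0) (bas a b c 2) = bas a b c 6 := h.tab1 6
    have v30 : cross (bas a b c 3) (bas a b c 0) = bas a b c 1 := h.tab3 0
    have v41 : cross (bas a b c 4) (bas a b c 1) = bas a b c 2 := h.tab3 1
    have v52 : cross (bas a b c 5) (bas a b c 2) = bas a b c 3 := h.tab3 2
    have v63 : cross (bas a b c 6) (bas a b c 3) = bas a b c 4 := h.tab3 3
    have v04 : cross (bas a b c 0) (bas a b c 4) = bas a b c 5 := h.tab3 4
    have v15 : cross (bas a b c 1) (bas a b c 5) = bas a b c 6 := h.tab3 5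
    have v26 : cross (bas a b c 2) (bas a b c 6) = bas a b c 0 := h.tab3 6
    have w : ∀ i j k : Fin 7, cross (bas a b c i) (bas a b c j) = bas a b c k →
        cross (bas a b c j) (bas a b c i) = -bas a b c k := fun i j k hh => by
      rw [cross_anti, hh]
    have a10 := w _ _ _ t01
    have a21 := w _ _ _ t12
    have a32 := w _ _ _ t23
    have a43 := w _ _ _ t34
    have a54 := w _ _ _ t45
    have a65 := w _ _ _ t56
    have a06 := w _ _ _ t60
    have b31 := w _ _ _ u13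
    have b42 := w _ _ _ u24
    have b53 := w _ _ _ u35
    have b64 := w _ _ _ u46
    have b05 := w _ _ _ u50
    have b16 := w _ _ _ u61
    have b20 := w _ _ _ u02
    have c03 := w _ _ _ v30
    have c14 := w _ _ _ v41
    have c25 := w _ _ _ v52
    have c36 := w _ _ _ v63
    have c40 := w _ _ _ v04
    have c51 := w _ _ _ v15
    have c62 := w _ _ _ v26
    have hsum : ∀ F : Fin 7 → Fin 7 → ℝ, ∑ i, F i =
        F 0 + F 1 + F 2 + F 3 + F 4 + F 5 + F 6 := by
      intro F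
      simp only [Fin.sum_univ_succ, Finset.univ_eq_empty, Finset.sum_empty, add_zero]
      show F 0 + (F 1 + (F 2 + (F 3 + (F 4 + (F 5 + F 6))))) = _
      abel
    simp only [hsum, cross_self, t01, t12, t23, t34, t45, t56, t60, u13, u24, u35, u46, u50, u61,
      u02, v30, v41, v52, v63, v04, v15, v26, a10, a21, a32, a43, a54, a65, a06, b31, b42, b53,
      b64, b05, b16, b20, c03, c14, c25, c36, c40, c51, c62, cr0, cr1, cr2, cr3, cr4, cr5, cr6]
    module

lemma exists_basic {a b : Fin 7 → ℝ} (haa : a ⬝ᵥ a = 1) (hbb : b ⬝ᵥ b = 1) (hab : a ⬝ᵥ b = 0) :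
    ∃ c, Basic a b c := by
  let L : (Fin 7 → ℝ) →ₗ[ℝ] (Fin 3 → ℝ) := Matrix.mulVecLin (Matrix.of ![a, b, cross a b])
  have h1 : LinearMap.ker L ≠ ⊥ := by
    apply LinearMap.ker_ne_bot_of_finrank_lt
    simp
  obtain ⟨w, hw, hw0⟩ := Submodule.exists_mem_ne_zero_of_ne_bot h1
  rw [LinearMap.mem_ker] at hw
  have w1 : a ⬝ᵥ w = 0 := congrFun hw 0
  have w2 : b ⬝ᵥ w = 0 := congrFun hw 1
  have w3 : cross a b ⬝ᵥ w = 0 := congrFun hw 2
  have hpos := Quat.dot_self_pos hw0
  set t := √(w ⬝ᵥ w) with ht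
  have ht0 : 0 < t := Real.sqrt_pos.2 hpos
  have ht2 : t * t = w ⬝ᵥ w := Real.mul_self_sqrt hpos.le
  refine ⟨t⁻¹ • w, haa, hbb, ?_, hab, ?_, ?_, ?_⟩
  · rw [smul_dotProduct, dotProduct_smul, ← ht2]
    simp only [smul_eq_mul]
    field_simp
  · rw [dotProduct_smul, w2, smul_zero]
  · rw [dotProduct_smul, w1, smul_zero]
  · rw [dotProduct_smul, w3, smul_zero]

lemma basM_zero (a b c : Fin 7 → ℝ) : basM a b c *ᵥ Pi.single 0 1 = a := by
  rw [Matrix.mulVec_single_one]; rfl

lemma basM_one (a b c : Fin 7 → ℝ) : basM a b c *ᵥ Pi.single 1 1 = b := by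
  rw [Matrix.mulVec_single_one]; rfl

/-- `G₂` acts transitively on the orthonormal pairs. -/
theorem pairTrans_G2 : PairTrans IsG2 := by
  refine ⟨fun A hA => hA.1, ?_⟩
  intro e f e' f' he hf hef he' hf' hef'
  obtain ⟨c, hc⟩ := exists_basic he hf hef
  obtain ⟨c', hc'⟩ := exists_basic he' hf' hef'
  have h1 := hc.isG2
  have h2 := hc'.isG2
  have h3 : basM e f c * (basM e f c)ᵀ = 1 := mul_eq_one_comm.1 h1.1
  have ht : IsG2 (basM e f c)ᵀ := by
    refine ⟨by rw [transpose_transpose, h3], fun x y => ?_⟩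
    have hx : ∀ x, basM e f c *ᵥ ((basM e f c)ᵀ *ᵥ x) = x := fun x => by
      rw [mulVec_mulVec, h3, one_mulVec]
    conv_lhs => rw [← hx x, ← hx y, ← h1.2, mulVec_mulVec, h1.1, one_mulVec]
  refine ⟨basM e' f' c' * (basM e f c)ᵀ, ⟨orth_mul h2.1 ht.1, fun x y => ?_⟩, ?_, ?_⟩
  · rw [← mulVec_mulVec, ht.2, h2.2, mulVec_mulVec, mulVec_mulVec]
  · have h4 : (basM e f c)ᵀ *ᵥ (basM e f c *ᵥ Pi.single 0 1) = Pi.single 0 1 := by
      rw [mulVec_mulVec, h1.1, one_mulVec]
    rw [basM_zero] at h4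
    rw [← mulVec_mulVec, h4, basM_zero]
  · have h4 : (basM e f c)ᵀ *ᵥ (basM e f c *ᵥ Pi.single 1 1) = Pi.single 1 1 := by
      rw [mulVec_mulVec, h1.1, one_mulVec]
    rw [basM_one] at h4
    rw [← mulVec_mulVec, h4, basM_one]

end Vale.Agent.G2
end
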