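import Vale.Agent.P366.T2.MInv

/-! Tensor fields invariant under a group of orthogonal matrices acting transitively on the
orthonormal pairs are of the form `a (δ - x x / |x|²) + p x x / |x|²`. -/

open Matrix Filter Topology Set
open scoped ContDiff

noncomputable section
namespace Vale.Agent.G2
open Vale.Agent.P366.Stmt Vale.Agent.P366.T2

variable {n : ℕ}

/-- `G` is a set of orthogonal matrices which acts transitively on the orthonormal pairs. -/
def PairTrans (G : Matrix (Fin n) (Fin n) ℝ → Prop) : Prop :=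
  (∀ A, G A → Aᵀ * A = 1) ∧ ∀ e f e' f' : Fin n → ℝ, e ⬝ᵥ e = 1 → f ⬝ᵥ f = 1 → e ⬝ᵥ f = 0 →
    e' ⬝ᵥ e' = 1 → f' ⬝ᵥ f' = 1 → e' ⬝ᵥ f' = 0 → ∃ A, G A ∧ A *ᵥ e = e' ∧ A *ᵥ f = f'

/-- `T` is invariant, on `R ≤ |x|`, under the matrices in `G`. -/
def InvUnder (G : Matrix (Fin n) (Fin n) ℝ → Prop) (R : ℝ) (T : Field n) : Prop :=
  ∀ A : Matrix (Fin n) (Fin n) ℝ, G A → ∀ x y : E n, R ≤ len x → (∀ i, y i = ∑ j, A i j * x j) →
    ∀ i j, ∑ k, ∑ l, A k i * T y k l * A l j = T x i j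

/-- radial coefficient -/
def pC (T : Field n) (e : Fin n → ℝ) (r : ℝ) : ℝ := e ⬝ᵥ (mat T (pt e r) *ᵥ e)

/-- tangential coefficient -/
def aC (T : Field n) (e f : Fin n → ℝ) (r : ℝ) : ℝ := f ⬝ᵥ (mat T (pt e r) *ᵥ f)

lemma eq_zero_of_quad {N : Matrix (Fin n) (Fin n) ℝ} (hs : Nᵀ = N)
    (h : ∀ z : Fin n → ℝ, z ⬝ᵥ (N *ᵥ z) = 0) : N = 0 := by
  have hs' : ∀ i j, N i j = N j i := fun i j => by
    have := congrFun (congrFun hs j) i
    simpa [Matrix.transpose_apply] using this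
  have hi : ∀ i j, (Pi.single i 1 : Fin n → ℝ) ⬝ᵥ (N *ᵥ Pi.single j 1) = N i j := by
    intro i j
    rw [single_one_dotProduct, Matrix.mulVec_single_one]
    rfl
  ext i j
  have h1 := h (Pi.single i 1)
  have h2 := h (Pi.single j 1)
  have h3 := h (Pi.single i 1 + Pi.single j 1)
  rw [hi] at h1 h2
  simp only [mulVec_add, dotProduct_add, add_dotProduct, hi] at h3
  rw [h1, h2, hs' j i] at h3
  rw [Matrix.zero_apply]
  linarith

lemma InvUnder.mat_eq {G : Matrix (Fin n) (Fin n) ℝ → Prop} {R : ℝ} {T : Field n}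
    (hT : InvUnder G R T) {A : Matrix (Fin n) (Fin n) ℝ} (hA : G A) {x : E n} (hx : R ≤ len x) :
    Aᵀ * mat T (act A x) * A = mat T x := by
  ext i j
  have h := hT A hA x (act A x) hx (fun i => rfl) i j
  show _ = T x i j
  rw [← h, Matrix.mul_apply]
  simp only [Matrix.mul_apply, Matrix.transpose_apply, Finset.sum_mul]
  rw [Finset.sum_comm]
  rfl

/-- the reflection in the hyperplane orthogonal to `v` -/
def rf (v : Fin n → ℝ) : Matrix (Fin n) (Fin n) ℝ := 1 - (2 / (v ⬝ᵥ v)) • vecMulVec v v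

lemma rf_orth {v : Fin n → ℝ} (hv : v ≠ 0) : (rf v)ᵀ * rf v = 1 := by
  have h0 : v ⬝ᵥ v ≠ 0 := (Quat.dot_self_pos hv).ne'
  have h1 : (rf v)ᵀ = rf v := by
    rw [rf, transpose_sub, transpose_smul, transpose_one, transpose_vecMulVec]
  rw [h1, rf, Matrix.mul_sub, Matrix.mul_one, Matrix.mul_smul, Matrix.sub_mul,
    Matrix.one_mul, Matrix.smul_mul, vecMulVec_mul_vecMulVec]
  ext i j
  simp only [Matrix.sub_apply, Matrix.smul_apply, vecMulVec_apply, Pi.smul_apply,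
    smul_eq_mul]
  field_simp
  ring

lemma rf_mulVec (v w : Fin n → ℝ) : rf v *ᵥ w = w - (2 * (v ⬝ᵥ w) / (v ⬝ᵥ v)) • v := by
  rw [rf, sub_mulVec, one_mulVec, smul_mulVec, vecMulVec_mulVec]
  ext i
  simp only [Pi.sub_apply, Pi.smul_apply, smul_eq_mul, MulOpposite.smul_eq_mul_unop,
    MulOpposite.unop_op]
  ring

lemma rf_fix {v w : Fin n → ℝ} (h : v ⬝ᵥ w = 0) : rf v *ᵥ w = w := by
  rw [rf_mulVec, h]; simp

lemma rf_swap {e u : Fin n → ℝ} (he : e ⬝ᵥ e = 1) (hu : u ⬝ᵥ u = 1) (heu : e - u ≠ 0) :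
    rf (e - u) *ᵥ e = u := by
  have hd0 := Quat.dot_self_pos heu
  have hdd : (e - u) ⬝ᵥ (e - u) = 2 * ((e - u) ⬝ᵥ e) := by
    have : (e - u) ⬝ᵥ (e - u) = e ⬝ᵥ e - 2 * (e ⬝ᵥ u) + u ⬝ᵥ u := by
      rw [sub_dotProduct, dotProduct_sub, dotProduct_sub, dotProduct_comm u e]; ring
    rw [this, he, hu, sub_dotProduct, he, dotProduct_comm u e]; ring
  rw [rf_mulVec, ← hdd, div_self hd0.ne', one_smul]
  abel

/-- an orthogonal matrix moving a unit vector to a unit vector and fixing everything orthogonal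
to both -/
lemma exists_move {e u : Fin n → ℝ} (he : e ⬝ᵥ e = 1) (hu : u ⬝ᵥ u = 1) :
    ∃ A : Matrix (Fin n) (Fin n) ℝ, Aᵀ * A = 1 ∧ A *ᵥ e = u ∧
      ∀ w : Fin n → ℝ, e ⬝ᵥ w = 0 → u ⬝ᵥ w = 0 → A *ᵥ w = w := by
  by_cases heu : e - u = 0
  · exact ⟨1, by simp, by rw [sub_eq_zero.1 heu, one_mulVec], fun w _ _ => one_mulVec w⟩
  · exact ⟨rf (e - u), rf_orth heu, rf_swap he hu heu, fun w h1 h2 => rf_fix (by
      rw [sub_dotProduct, h1, h2, sub_zero])⟩

variable {G : Matrix (Fin n) (Fin n) ℝ → Prop}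

theorem radial_form (hG : PairTrans G) {R : ℝ} (hR : 0 < R) {T : Field n}
    (hT : InvUnder G R T) (hs : ∀ x, R ≤ len x → ∀ i j, T x i j = T x j i) {e f : Fin n → ℝ}
    (he : e ⬝ᵥ e = 1) (hf : f ⬝ᵥ f = 1) (hef : e ⬝ᵥ f = 0) {x : E n} (hx : R ≤ len x)
    (i j : Fin n) :
    T x i j = aC T e f (len x) * ((if i = j then 1 else 0) - x i * x j / len x ^ 2) +
      pC T e (len x) * (x i * x j / len x ^ 2) := by
  have hx0 : 0 < len x := hR.trans_le hx
  have hu := hat_unit hx0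
  set u := hat x with hudef
  set M := mat T x with hM
  have hMs : Mᵀ = M := by ext i j; exact hs x hx j i
  -- transport
  have key : ∀ v : Fin n → ℝ, v ⬝ᵥ v = 1 → u ⬝ᵥ v = 0 →
      pC T e (len x) = u ⬝ᵥ (M *ᵥ u) ∧ aC T e f (len x) = v ⬝ᵥ (M *ᵥ v) ∧
      e ⬝ᵥ (mat T (pt e (len x)) *ᵥ f) = u ⬝ᵥ (M *ᵥ v) := by
    intro v hv huv
    obtain ⟨A, hA, hAe, hAf⟩ := hG.2 e f u v he hf hef hu hv huv
    have h1 := hT.mat_eq hA (x := pt e (len x)) (by rw [len_pt he, abs_of_pos hx0]; exact hx)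
    rw [act_pt, hAe, hudef, pt_hat hx0] at h1
    refine ⟨?_, ?_, ?_⟩
    · rw [pC, ← h1, Quat.transport, hAe]
    · rw [aC, ← h1, Quat.transport, hAf]
    · rw [← h1, Quat.transport, hAe, hAf]
  have hmix : ∀ v : Fin n → ℝ, v ⬝ᵥ v = 1 → u ⬝ᵥ v = 0 → u ⬝ᵥ (M *ᵥ v) = 0 := by
    intro v hv huv
    have h1 := (key v hv huv).2.2
    have h2 := (key (-v) (by simp [hv]) (by simp [huv])).2.2
    rw [h1, mulVec_neg, dotProduct_neg] at h2
    linarith
  -- there is a unit vector orthogonal to `u`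
  obtain ⟨A0, hA0, hA0e, hA0f⟩ : ∃ A : Matrix (Fin n) (Fin n) ℝ, Aᵀ * A = 1 ∧ A *ᵥ e = u ∧
      u ⬝ᵥ (A *ᵥ f) = 0 := by
    obtain ⟨A, hA, hAu, -⟩ := exists_move he hu
    refine ⟨A, hA, hAu, ?_⟩
    rw [← hAu, Quat.mulVec_dot, mulVec_mulVec, hA, one_mulVec, hef]
  have hv0 : (A0 *ᵥ f) ⬝ᵥ (A0 *ᵥ f) = 1 := by
    rw [Quat.mulVec_dot, mulVec_mulVec, hA0, one_mulVec, hf]
  have hp : pC T e (len x) = u ⬝ᵥ (M *ᵥ u) := (key _ hv0 hA0f).1
  -- the quadratic form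
  have hquad : ∀ z : Fin n → ℝ, z ⬝ᵥ (M *ᵥ z) =
      aC T e f (len x) * (z ⬝ᵥ z - (u ⬝ᵥ z) ^ 2) + pC T e (len x) * (u ⬝ᵥ z) ^ 2 := by
    intro z
    set c := u ⬝ᵥ z with hc
    set z' := z - c • u with hz'
    have huz' : u ⬝ᵥ z' = 0 := by
      rw [hz', dotProduct_sub, dotProduct_smul, hu, ← hc]; simp
    have hz : z = c • u + z' := by rw [hz']; abel
    have hzz : z' ⬝ᵥ z' = z ⬝ᵥ z - c ^ 2 := by
      rw [hz', sub_dotProduct, dotProduct_sub, dotProduct_sub, smul_dotProduct, dotProduct_smul,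
        dotProduct_smul, smul_dotProduct, hu, dotProduct_comm z u, ← hc]
      simp only [smul_eq_mul]; ring
    have h2 : u ⬝ᵥ (M *ᵥ z') = 0 ∧ z' ⬝ᵥ (M *ᵥ z') = aC T e f (len x) * (z' ⬝ᵥ z') := by
      by_cases h0 : z' = 0
      · rw [h0]; simp
      · have hpos := Quat.dot_self_pos h0
        set t := √(z' ⬝ᵥ z') with ht
        have ht0 : 0 < t := Real.sqrt_pos.2 hpos
        have ht2 : t * t = z' ⬝ᵥ z' := Real.mul_self_sqrt hpos.le
        have hv1 : (t⁻¹ • z') ⬝ᵥ (t⁻¹ • z') = 1 := by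
          rw [smul_dotProduct, dotProduct_smul, ← ht2]
          simp only [smul_eq_mul]
          field_simp
        have hv2 : u ⬝ᵥ (t⁻¹ • z') = 0 := by rw [dotProduct_smul, huz', smul_zero]
        have h3 := hmix _ hv1 hv2
        have h4 := (key _ hv1 hv2).2.1
        rw [mulVec_smul, dotProduct_smul, smul_eq_mul] at h3
        rw [mulVec_smul, smul_dotProduct, dotProduct_smul, smul_eq_mul, smul_eq_mul] at h4
        refine ⟨?_, ?_⟩
        · exact (mul_eq_zero.1 h3).resolve_left (inv_ne_zero ht0.ne')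
        · rw [h4, ← ht2]
          field_simp
    have h3 : z' ⬝ᵥ (M *ᵥ u) = 0 := by
      rw [← Quat.mulVec_dot_symm hMs, dotProduct_comm, h2.1]
    rw [← hzz]
    conv_lhs => rw [hz]
    simp only [mulVec_add, mulVec_smul, dotProduct_add, add_dotProduct, smul_dotProduct,
      dotProduct_smul, smul_eq_mul, h2.1, h2.2, h3, ← hp]
    ring
  have hN : M - (aC T e f (len x) • (1 - vecMulVec u u) + pC T e (len x) • vecMulVec u u) = 0 := by
    refine eq_zero_of_quad ?_ fun z => ?_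
    · rw [transpose_sub, hMs, transpose_add, transpose_smul, transpose_smul, transpose_sub,
        transpose_one, transpose_vecMulVec]
    · rw [sub_mulVec, dotProduct_sub, hquad, add_mulVec, smul_mulVec, smul_mulVec, sub_mulVec,
        one_mulVec, vecMulVec_mulVec]
      simp only [dotProduct_add, dotProduct_smul, dotProduct_sub, smul_eq_mul,
        MulOpposite.smul_eq_mul_unop, MulOpposite.unop_op, dotProduct_comm z u]
      ring
  have h5 := congrFun (congrFun hN i) j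
  simp only [Matrix.sub_apply, Matrix.add_apply, Matrix.smul_apply, vecMulVec_apply, smul_eq_mul,
    Matrix.one_apply, Matrix.zero_apply] at h5
  have h6 : T x i j = M i j := rfl
  rw [h6, sub_eq_zero.1 h5, hudef]
  have h7 : ∀ k, hat x k = x k / len x := fun k => Quat.hat_apply x k
  rw [h7, h7]
  field_simp

end Vale.Agent.G2
end
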