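import Vale.Agent.P366.T2.G2.Pair
import Mathlib.LinearAlgebra.Matrix.SchurComplement

/-! `SO(n)`, `n ≥ 3`, acts transitively on the orthonormal pairs. -/

open Matrix Filter Topology Set
open scoped ContDiff

noncomputable section
namespace Vale.Agent.G2
open Vale.Agent.P366.Stmt Vale.Agent.P366.T2

variable {n : ℕ}

/-- the rotation group -/
def SO (A : Matrix (Fin n) (Fin n) ℝ) : Prop := Aᵀ * A = 1 ∧ A.det = 1

lemma rf_det {v : Fin n → ℝ} (hv : v ≠ 0) : (rf v).det = -1 := by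
  have h0 : v ⬝ᵥ v ≠ 0 := (Quat.dot_self_pos hv).ne'
  have h1 : rf v = 1 + replicateCol Unit (-(2 / (v ⬝ᵥ v)) • v) * replicateRow Unit v := by
    rw [← vecMulVec_eq, rf, smul_vecMulVec, neg_smul, sub_eq_add_neg]
  rw [h1, det_one_add_replicateCol_mul_replicateRow, dotProduct_smul, smul_eq_mul]
  field_simp
  ring

lemma exists_perp (hn : 3 ≤ n) (e f : Fin n → ℝ) : ∃ w : Fin n → ℝ, w ≠ 0 ∧ w ⬝ᵥ e = 0 ∧
    w ⬝ᵥ f = 0 := by
  let L : (Fin n → ℝ) →ₗ[ℝ] (Fin 2 → ℝ) := Matrix.mulVecLin (Matrix.of ![e, f])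
  have h1 : LinearMap.ker L ≠ ⊥ := by
    apply LinearMap.ker_ne_bot_of_finrank_lt
    simp
    omega
  obtain ⟨w, hw, hw0⟩ := Submodule.exists_mem_ne_zero_of_ne_bot h1
  rw [LinearMap.mem_ker] at hw
  refine ⟨w, hw0, ?_, ?_⟩
  · have := congrFun hw 0
    rw [dotProduct_comm]
    exact this
  · have := congrFun hw 1
    rw [dotProduct_comm]
    exact this

lemma orth_mul {A B : Matrix (Fin n) (Fin n) ℝ} (hA : Aᵀ * A = 1) (hB : Bᵀ * B = 1) :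
    (A * B)ᵀ * (A * B) = 1 := by
  rw [transpose_mul, Matrix.mul_assoc, ← Matrix.mul_assoc Aᵀ, hA, Matrix.one_mul, hB]

lemma orth_dot {A : Matrix (Fin n) (Fin n) ℝ} (hA : Aᵀ * A = 1) (u v : Fin n → ℝ) :
    (A *ᵥ u) ⬝ᵥ (A *ᵥ v) = u ⬝ᵥ v := by
  rw [Quat.mulVec_dot, mulVec_mulVec, hA, one_mulVec]

theorem pairTrans_SO (hn : 3 ≤ n) : PairTrans (SO (n := n)) := by
  refine ⟨fun A hA => hA.1, ?_⟩
  intro e f e' f' he hf hef he' hf' hef'
  obtain ⟨A, hA, hAe, -⟩ := exists_move he he'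
  have hf1 : (A *ᵥ f) ⬝ᵥ (A *ᵥ f) = 1 := by rw [orth_dot hA, hf]
  have hef1 : (A *ᵥ f) ⬝ᵥ e' = 0 := by rw [← hAe, orth_dot hA, dotProduct_comm, hef]
  obtain ⟨B, hB, hBf, hBfix⟩ := exists_move hf1 hf'
  have hBe : B *ᵥ e' = e' := hBfix _ hef1 (by rw [dotProduct_comm, hef'])
  have hC := orth_mul hB hA
  have hCe : (B * A) *ᵥ e = e' := by rw [← mulVec_mulVec, hAe, hBe]
  have hCf : (B * A) *ᵥ f = f' := by rw [← mulVec_mulVec, hBf]
  have hdet : (B * A).det = 1 ∨ (B * A).det = -1 := by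
    have h1 := congrArg Matrix.det hC
    rw [det_mul, det_transpose, det_one] at h1
    exact mul_self_eq_one_iff.1 h1
  rcases hdet with h | h
  · exact ⟨B * A, ⟨hC, h⟩, hCe, hCf⟩
  · obtain ⟨w, hw0, hwe, hwf⟩ := exists_perp hn e' f'
    refine ⟨rf w * (B * A), ⟨orth_mul (rf_orth hw0) hC, ?_⟩, ?_, ?_⟩
    · rw [det_mul, rf_det hw0, h]; norm_num
    · rw [← mulVec_mulVec, hCe, rf_fix hwe]
    · rw [← mulVec_mulVec, hCf, rf_fix hwf]

end Vale.Agent.G2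
end
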