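import Vale.Agent.P366.T2.G2.Oct

/-! `Spin(7)` acts transitively on the orthonormal pairs of `ℝ⁸`. -/

open Matrix Filter Topology Set
open scoped ContDiff

noncomputable section
namespace Vale.Agent.G2
open Vale.Agent.P366.Stmt Vale.Agent.P366.T2

/-- the imaginary part of an octonion -/
def tl (x : Fin 8 → ℝ) : Fin 7 → ℝ := fun i => x i.succ

/-- The octonionic product `u x` of an imaginary octonion `u ∈ ℝ⁷` and an octonion
`x = (x 0, tl x) ∈ ℝ ⊕ ℝ⁷`. -/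
def om (u : Fin 7 → ℝ) (x : Fin 8 → ℝ) : Fin 8 → ℝ :=
  Fin.cons (-(u ⬝ᵥ tl x)) (x 0 • u + cross u (tl x))

/-- The group `Spin(7)`: the orthogonal matrices `A` of size eight which normalize the space of the
left multiplications by imaginary octonions, `A ∘ L_u = L_{B u} ∘ A`. -/
def IsSpin7 (A : Matrix (Fin 8) (Fin 8) ℝ) : Prop :=
  Aᵀ * A = 1 ∧ ∃ B : Matrix (Fin 7) (Fin 7) ℝ, ∀ u x, A *ᵥ om u x = om (B *ᵥ u) (A *ᵥ x)

lemma om_zero (u : Fin 7 → ℝ) (x : Fin 8 → ℝ) : om u x 0 = -(u ⬝ᵥ tl x) := rfl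

lemma tl_om (u : Fin 7 → ℝ) (x : Fin 8 → ℝ) : tl (om u x) = x 0 • u + cross u (tl x) := rfl

lemma ext8 {x y : Fin 8 → ℝ} (h0 : x 0 = y 0) (h1 : tl x = tl y) : x = y := by
  funext i
  refine Fin.cases h0 (fun j => ?_) i
  exact congrFun h1 j

lemma tl_add (x y : Fin 8 → ℝ) : tl (x + y) = tl x + tl y := rfl

lemma tl_smul (c : ℝ) (x : Fin 8 → ℝ) : tl (c • x) = c • tl x := rfl

lemma dot8 (x y : Fin 8 → ℝ) : x ⬝ᵥ y = x 0 * y 0 + tl x ⬝ᵥ tl y := by
  simp only [dotProduct, Fin.sum_univ_succ (n := 7), tl]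

lemma om_add (u : Fin 7 → ℝ) (x y : Fin 8 → ℝ) : om u (x + y) = om u x + om u y := by
  refine ext8 ?_ ?_
  · rw [Pi.add_apply, om_zero, om_zero, om_zero, tl_add, dotProduct_add]; ring
  · rw [tl_add, tl_om, tl_om, tl_om, tl_add, cross_add, Pi.add_apply, add_smul]; abel

lemma om_smul (u : Fin 7 → ℝ) (c : ℝ) (x : Fin 8 → ℝ) : om u (c • x) = c • om u x := by
  refine ext8 ?_ ?_
  · rw [Pi.smul_apply, om_zero, om_zero, tl_smul, dotProduct_smul]; simp only [smul_eq_mul]; ring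
  · rw [tl_smul, tl_om, tl_om, tl_smul, cross_smul, Pi.smul_apply, smul_add, smul_eq_mul, mul_smul]

lemma add_om (u v : Fin 7 → ℝ) (x : Fin 8 → ℝ) : om (u + v) x = om u x + om v x := by
  refine ext8 ?_ ?_
  · rw [Pi.add_apply, om_zero, om_zero, om_zero, add_dotProduct]; ring
  · rw [tl_add, tl_om, tl_om, tl_om, add_cross, smul_add]; abel

lemma smul_om (u : Fin 7 → ℝ) (c : ℝ) (x : Fin 8 → ℝ) : om (c • u) x = c • om u x := by
  refine ext8 ?_ ?_
  · rw [Pi.smul_apply, om_zero, om_zero, smul_dotProduct]; simp only [smul_eq_mul]; ring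
  · rw [tl_smul, tl_om, tl_om, smul_cross, smul_add, smul_comm]

/-- the Clifford relation, one vector -/
lemma om_om (u : Fin 7 → ℝ) (x : Fin 8 → ℝ) : om u (om u x) = -(u ⬝ᵥ u) • x := by
  refine ext8 ?_ ?_
  · rw [om_zero, tl_om, dotProduct_add, dotProduct_smul, dot_cross, Pi.smul_apply]
    simp only [smul_eq_mul]; ring
  · rw [tl_om, om_zero, tl_om, cross_add, cross_smul, cross_self, cross_cross, tl_smul]
    module

/-- the Clifford relation -/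
lemma om_polar (u v : Fin 7 → ℝ) (x : Fin 8 → ℝ) :
    om v (om u x) = -om u (om v x) + (-(2 * (u ⬝ᵥ v))) • x := by
  have h := om_om (u + v) x
  simp only [add_om, om_add, om_om, add_dotProduct, dotProduct_add] at h
  rw [dotProduct_comm v u] at h
  have h2 : om v (om u x) = (-(u ⬝ᵥ u) • x + om v (om u x) + (om u (om v x) + -(v ⬝ᵥ v) • x)) +
      (-om u (om v x) + (u ⬝ᵥ u + v ⬝ᵥ v) • x) := by module
  rw [h2, h]
  module

lemma om_dot (u : Fin 7 → ℝ) (x y : Fin 8 → ℝ) : om u x ⬝ᵥ om u y = (u ⬝ᵥ u) * (x ⬝ᵥ y) := by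
  rw [dot8, dot8 x y, om_zero, om_zero, tl_om, tl_om]
  simp only [add_dotProduct, dotProduct_add, smul_dotProduct, dotProduct_smul, smul_eq_mul]
  have h1 : u ⬝ᵥ cross u (tl y) = 0 := dot_cross _ _
  have h2 : cross u (tl x) ⬝ᵥ u = 0 := by rw [dotProduct_comm, dot_cross]
  have h3 : cross u (tl x) ⬝ᵥ cross u (tl y) =
      (u ⬝ᵥ u) * (tl x ⬝ᵥ tl y) - (u ⬝ᵥ tl x) * (u ⬝ᵥ tl y) := by
    rw [cross_anti u (tl x), neg_dotProduct, triple, cross_cross, dotProduct_sub, dotProduct_smul,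
      dotProduct_smul, dotProduct_comm (tl x) u]
    simp only [smul_eq_mul]; ring
  rw [h1, h2, h3]
  ring

/-- left multiplication by an imaginary octonion, as a matrix -/
def Lm (u : Fin 7 → ℝ) : Matrix (Fin 8) (Fin 8) ℝ :=
  LinearMap.toMatrix' { toFun := om u, map_add' := om_add u, map_smul' := om_smul u }

lemma Lm_mulVec (u : Fin 7 → ℝ) (x : Fin 8 → ℝ) : Lm u *ᵥ x = om u x := by
  unfold Lm
  rw [LinearMap.toMatrix'_mulVec]
  rfl

/-- the extension of a matrix of size seven by one -/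
def ex (A : Matrix (Fin 7) (Fin 7) ℝ) : Matrix (Fin 8) (Fin 8) ℝ :=
  LinearMap.toMatrix'
    { toFun := fun x => Fin.cons (x 0) (A *ᵥ tl x)
      map_add' := fun x y => ext8 rfl (by
        show A *ᵥ tl (x + y) = A *ᵥ tl x + A *ᵥ tl y
        rw [tl_add, mulVec_add])
      map_smul' := fun c x => ext8 rfl (by
        show A *ᵥ tl (c • x) = c • A *ᵥ tl x
        rw [tl_smul, mulVec_smul]) : (Fin 8 → ℝ) →ₗ[ℝ] (Fin 8 → ℝ) }

lemma ex_mulVec (A : Matrix (Fin 7) (Fin 7) ℝ) (x : Fin 8 → ℝ) :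
    ex A *ᵥ x = Fin.cons (x 0) (A *ᵥ tl x) := by
  unfold ex
  rw [LinearMap.toMatrix'_mulVec]
  rfl

lemma orth_of_dot {n : ℕ} {A : Matrix (Fin n) (Fin n) ℝ}
    (h : ∀ x y : Fin n → ℝ, (A *ᵥ x) ⬝ᵥ (A *ᵥ y) = x ⬝ᵥ y) : Aᵀ * A = 1 := by
  ext i j
  have h1 := h (Pi.single i 1) (Pi.single j 1)
  rw [Quat.mulVec_dot, mulVec_mulVec, single_one_dotProduct, mulVec_single_one,
    single_one_dotProduct] at h1
  rw [Matrix.one_apply]
  have h2 : (Aᵀ * A) i j = (Aᵀ * A).col j i := rfl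
  rw [h2, h1, Pi.single_apply]

lemma isSpin7_Lm {u : Fin 7 → ℝ} (hu : u ⬝ᵥ u = 1) : IsSpin7 (Lm u) := by
  refine ⟨orth_of_dot fun x y => ?_, -1 + (2 : ℝ) • vecMulVec u u, fun v x => ?_⟩
  · rw [Lm_mulVec, Lm_mulVec, om_dot, hu, one_mul]
  · have h1 : (-1 + (2 : ℝ) • vecMulVec u u) *ᵥ v = -v + (2 * (u ⬝ᵥ v)) • u := by
      rw [add_mulVec, neg_mulVec, one_mulVec, smul_mulVec, vecMulVec_mulVec]
      ext i
      simp only [Pi.add_apply, Pi.neg_apply, Pi.smul_apply, smul_eq_mul,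
        MulOpposite.smul_eq_mul_unop, MulOpposite.unop_op]
      ring
    rw [Lm_mulVec, Lm_mulVec, h1, add_om, smul_om, om_om, hu, om_polar, dotProduct_comm u v]
    have h2 : om (-v) (om u x) = -om v (om u x) := by
      have := smul_om v (-1) (om u x)
      simpa using this
    rw [h2]
    module

lemma isSpin7_ex {A : Matrix (Fin 7) (Fin 7) ℝ} (hA : IsG2 A) : IsSpin7 (ex A) := by
  refine ⟨orth_of_dot fun x y => ?_, A, fun u x => ?_⟩
  · rw [ex_mulVec, ex_mulVec, dot8, dot8 x y]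
    show x 0 * y 0 + (A *ᵥ tl x) ⬝ᵥ (A *ᵥ tl y) = _
    rw [orth_dot hA.1]
  · rw [ex_mulVec, ex_mulVec]
    refine ext8 ?_ ?_
    · show -(u ⬝ᵥ tl x) = -((A *ᵥ u) ⬝ᵥ (A *ᵥ tl x))
      rw [orth_dot hA.1]
    · show A *ᵥ (x 0 • u + cross u (tl x)) = x 0 • (A *ᵥ u) + cross (A *ᵥ u) (A *ᵥ tl x)
      rw [mulVec_add, mulVec_smul, hA.2]

lemma IsSpin7.mul {A A' : Matrix (Fin 8) (Fin 8) ℝ} (hA : IsSpin7 A) (hA' : IsSpin7 A') :
    IsSpin7 (A * A') := by
  obtain ⟨h1, B, hB⟩ := hA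
  obtain ⟨h1', B', hB'⟩ := hA'
  refine ⟨orth_mul h1 h1', B * B', fun u x => ?_⟩
  rw [← mulVec_mulVec, hB', hB, mulVec_mulVec, mulVec_mulVec]

/-- the unit of the octonions -/
def one8 : Fin 8 → ℝ := Fin.cons 1 0

/-- every unit octonion is a product of two imaginary units -/
lemma exists_lm {e : Fin 8 → ℝ} (he : e ⬝ᵥ e = 1) : ∃ u v : Fin 7 → ℝ, u ⬝ᵥ u = 1 ∧
    v ⬝ᵥ v = 1 ∧ om v (om u one8) = e := by
  obtain ⟨w, hw0, hwe, -⟩ := exists_perp (n := 7) (by norm_num) (tl e) (tl e)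
  have hpos := Quat.dot_self_pos hw0
  set t := √(w ⬝ᵥ w) with ht
  have ht0 : 0 < t := Real.sqrt_pos.2 hpos
  have ht2 : t * t = w ⬝ᵥ w := Real.mul_self_sqrt hpos.le
  have hu : (t⁻¹ • w) ⬝ᵥ (t⁻¹ • w) = 1 := by
    rw [smul_dotProduct, dotProduct_smul, ← ht2]
    simp only [smul_eq_mul]
    field_simp
  have hue : (t⁻¹ • w) ⬝ᵥ tl e = 0 := by rw [smul_dotProduct, hwe, smul_zero]
  generalize t⁻¹ • w = u at hu hue
  rw [dot8] at he
  have hu1 : om u one8 = Fin.cons 0 u := by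
    refine ext8 ?_ ?_
    · rw [om_zero]
      show -(u ⬝ᵥ (0 : Fin 7 → ℝ)) = 0
      simp
    · rw [tl_om]
      show (1 : ℝ) • u + cross u 0 = u
      have : cross u 0 = 0 := by
        have := cross_smul 0 u 0
        simpa using this
      rw [this, one_smul, add_zero]
  refine ⟨u, (-(e 0)) • u + cross u (tl e), hu, ?_, ?_⟩
  · simp only [add_dotProduct, dotProduct_add, smul_dotProduct, dotProduct_smul, smul_eq_mul]
    rw [dot_cross, dotProduct_comm (cross u (tl e)) u, dot_cross, norm_cross, hu, hue]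
    linarith
  · rw [hu1]
    refine ext8 ?_ ?_
    · rw [om_zero]
      show -((-(e 0) • u + cross u (tl e)) ⬝ᵥ u) = e 0
      rw [add_dotProduct, smul_dotProduct, hu, dotProduct_comm (cross u (tl e)) u, dot_cross]
      simp
    · rw [tl_om]
      show (0 : ℝ) • _ + cross (-(e 0) • u + cross u (tl e)) u = tl e
      rw [add_cross, smul_cross, cross_self, cross_anti (cross u (tl e)) u, cross_cross, hu, hue]
      simp

/-- `Spin(7)` acts transitively on the orthonormal pairs. -/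
theorem pairTrans_Spin7 : PairTrans IsSpin7 := by
  refine ⟨fun A hA => hA.1, ?_⟩
  intro e f e' f' he hf hef he' hf' hef'
  obtain ⟨u, v, hu, hv, huv⟩ := exists_lm he
  obtain ⟨u', v', hu', hv', huv'⟩ := exists_lm he'
  have hLL : ∀ {u : Fin 7 → ℝ}, u ⬝ᵥ u = 1 → ∀ x, om u (om u x) = -x := by
    intro u hu x
    rw [om_om, hu]; simp
  have hneg : ∀ (u : Fin 7 → ℝ) (x : Fin 8 → ℝ), om u (-x) = -om u x := by
    intro u x
    have := om_smul u (-1) x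
    simpa using this
  -- to the unit
  have hT : om u (om v e) = one8 := by
    rw [← huv, hLL hv, hneg, hLL hu, neg_neg]
  have hT' : om u' (om v' e') = one8 := by
    rw [← huv', hLL hv', hneg, hLL hu', neg_neg]
  have ho : ∀ x : Fin 8 → ℝ, one8 ⬝ᵥ x = x 0 := by
    intro x
    rw [dot8]
    show 1 * x 0 + (0 : Fin 7 → ℝ) ⬝ᵥ tl x = x 0
    rw [zero_dotProduct]; ring
  have key : ∀ {u v : Fin 7 → ℝ} {e f : Fin 8 → ℝ}, u ⬝ᵥ u = 1 → v ⬝ᵥ v = 1 → f ⬝ᵥ f = 1 →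
      e ⬝ᵥ f = 0 → om u (om v e) = one8 →
      (om u (om v f)) 0 = 0 ∧ tl (om u (om v f)) ⬝ᵥ tl (om u (om v f)) = 1 := by
    intro u v e f hu hv hf hef h1
    have h2 : (om u (om v f)) 0 = 0 := by
      rw [← ho (om u (om v f)), ← h1, om_dot, om_dot, hu, hv, hef]; ring
    refine ⟨h2, ?_⟩
    have h3 : om u (om v f) ⬝ᵥ om u (om v f) = 1 := by
      rw [om_dot, om_dot, hu, hv, hf]; ring
    rw [dot8, h2] at h3
    linarith
  obtain ⟨f0, f1⟩ := key hu hv hf hef hT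
  obtain ⟨f0', f1'⟩ := key hu' hv' hf' hef' hT'
  -- unit vectors orthogonal to the images
  have perp : ∀ f : Fin 7 → ℝ, ∃ g : Fin 7 → ℝ, g ⬝ᵥ g = 1 ∧ f ⬝ᵥ g = 0 := by
    intro f
    obtain ⟨w, hw0, hwe, -⟩ := exists_perp (n := 7) (by norm_num) f f
    have hpos := Quat.dot_self_pos hw0
    have ht0 : 0 < √(w ⬝ᵥ w) := Real.sqrt_pos.2 hpos
    have ht2 : √(w ⬝ᵥ w) * √(w ⬝ᵥ w) = w ⬝ᵥ w := Real.mul_self_sqrt hpos.le
    refine ⟨(√(w ⬝ᵥ w))⁻¹ • w, ?_, ?_⟩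
    · rw [smul_dotProduct, dotProduct_smul, smul_eq_mul, smul_eq_mul]
      nth_rewrite 3 [← ht2]
      field_simp
    · rw [dotProduct_smul, dotProduct_comm f w, hwe, smul_zero]
  obtain ⟨g, hg, hfg⟩ := perp (tl (om u (om v f)))
  obtain ⟨g', hg', hfg'⟩ := perp (tl (om u' (om v' f')))
  obtain ⟨A, hA, hAf, -⟩ := pairTrans_G2.2 _ g _ g' f1 hg hfg f1' hg' hfg'
  refine ⟨Lm v' * (Lm u' * (ex A * (Lm u * Lm v))), (isSpin7_Lm hv').mul ((isSpin7_Lm hu').mul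
    ((isSpin7_ex hA).mul ((isSpin7_Lm hu).mul (isSpin7_Lm hv)))), ?_, ?_⟩
  · simp only [← mulVec_mulVec, Lm_mulVec, hT]
    have h1 : ex A *ᵥ one8 = one8 := by
      rw [ex_mulVec]
      refine ext8 rfl ?_
      show A *ᵥ (0 : Fin 7 → ℝ) = 0
      rw [mulVec_zero]
    rw [h1, huv']
  · simp only [← mulVec_mulVec, Lm_mulVec]
    have h1 : ex A *ᵥ om u (om v f) = om u' (om v' f') := by
      rw [ex_mulVec]
      refine ext8 ?_ ?_
      · show (om u (om v f)) 0 = _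
        rw [f0, f0']
      · exact hAf
    rw [h1, hLL hu', hneg, hLL hv', neg_neg]

end Vale.Agent.G2
end
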